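import Vale.Agent.P283R.Tp.St
import Vale.Agent.P287D.Gf.St
import Vale.Agent.P287D.Cb.Fr

/-!
# P283R, block GF: the inertia group fixes the field of constants of the generic fibre
-/

set_option linter.all false

open Set IsLocalRing
open Vale.Agent.P287D

noncomputable section

namespace Vale.Agent.P283R.Gf

/-- a proper ideal which is stable under derivations dual to generators of the maximal ideal
vanishes -/
theorem eq_bot_of_der {R ι : Type} [CommRing R] [IsLocalRing R] [IsNoetherianRing R] [Algebra ℚ R]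
    [Fintype ι] [DecidableEq ι] {x : ι → R} (hx : Ideal.span (range x) = maximalIdeal R)
    (d : ι → R →+ R) (hm : ∀ i a b, d i (a * b) = a * d i b + b * d i a)
    (hd : ∀ i j, d i (x j) = if i = j then 1 else 0) {J : Ideal R} (hJ : ∀ i, ∀ a ∈ J, d i a ∈ J)
    (h1 : J ≠ ⊤) : J = ⊥ := by
  set m := maximalIdeal R
  have xm : ∀ j, x j ∈ m := fun j => hx ▸ Ideal.subset_span ⟨j, rfl⟩
  let E : R → R := fun u => ∑ j, x j * d j u
  have Ea : ∀ a b, E (a + b) = E a + E b := fun a b => by
    simp only [E, map_add, mul_add, Finset.sum_add_distrib]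
  have Em : ∀ a b, E (a * b) = a * E b + b * E a := fun a b => by
    simp only [E, hm, Finset.mul_sum, ← Finset.sum_add_distrib]
    exact Finset.sum_congr rfl fun j _ => by ring
  have Ex : ∀ j, E (x j) = x j := fun j => by
    simp only [E, hd]
    rw [Finset.sum_eq_single j (fun i _ hi => by simp [hi]) (by simp)]
    simp
  have E0 : ∀ a, E a ∈ m := fun a => m.sum_mem fun j _ => m.mul_mem_right _ (xm j)
  have E1 : ∀ w ∈ Ideal.span (range x), E w - w ∈ m * m := by
    intro w hw
    induction hw using Submodule.span_induction with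
    | mem v hv =>
      obtain ⟨j, rfl⟩ := hv
      rw [Ex, sub_self]
      exact zero_mem _
    | zero => simp [E]
    | add u v _ _ hu hv =>
      have : E (u + v) - (u + v) = E u - u + (E v - v) := by rw [Ea]; ring
      exact this ▸ add_mem hu hv
    | smul c u k hu =>
      have : E (c • u) - c • u = c * (E u - u) + u * E c := by rw [smul_eq_mul, Em]; ring
      exact this ▸ add_mem (Ideal.mul_mem_left _ _ hu) (Ideal.mul_mem_mul (hx ▸ k) (E0 c))
  have En : ∀ n : ℕ, ∀ u ∈ m ^ n, E u - n * u ∈ m ^ (n + 1) := by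
    intro n
    induction n with
    | zero => intro u _; simpa using E0 u
    | succ n ih =>
      intro u hu
      rw [pow_succ] at hu
      refine Submodule.mul_induction_on hu (fun v hv w hw => ?_) fun u v hu hv => ?_
      · have : E (v * w) - (n + 1 : ℕ) * (v * w) = v * (E w - w) + (E v - n * v) * w := by
          rw [Em]; push_cast; ring
        rw [this]
        refine add_mem ?_ ?_
        · rw [pow_succ, pow_succ, mul_assoc]
          exact Ideal.mul_mem_mul hv (E1 w (hx ▸ hw))
        · rw [pow_succ _ (n + 1)]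
          exact Ideal.mul_mem_mul (ih v hv) hw
      · have : E (u + v) - (n + 1 : ℕ) * (u + v) =
            E u - (n + 1 : ℕ) * u + (E v - (n + 1 : ℕ) * v) := by rw [Ea]; ring
        exact this ▸ add_mem hu hv
  have Jn : ∀ n : ℕ, J ≤ m ^ (n + 1) := by
    intro n
    induction n with
    | zero => simpa using le_maximalIdeal h1
    | succ n ih =>
      intro u hu
      have k1 : E u ∈ m ^ (n + 1 + 1) := by
        rw [pow_succ' _ (n + 1)]
        exact Ideal.sum_mem _ fun j _ => Ideal.mul_mem_mul (xm j) (ih (hJ j u hu))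
      have k2 : ((n + 1 : ℕ) : R) * u ∈ m ^ (n + 1 + 1) := by
        have := sub_mem k1 (En (n + 1) u (ih hu))
        rwa [sub_sub_cancel] at this
      have k3 : IsUnit ((n + 1 : ℕ) : R) := by
        rw [← map_natCast (algebraMap ℚ R)]
        exact (IsUnit.mk0 _ (Nat.cast_ne_zero.2 n.succ_ne_zero)).map _
      exact (Ideal.unit_mul_mem_iff_mem _ k3).1 k2
  rw [eq_bot_iff, ← Ideal.iInf_pow_eq_bot_of_isLocalRing m (maximalIdeal.isMaximal R).ne_top]
  exact le_iInf fun n => (Jn n).trans (Ideal.pow_le_pow_right n.le_succ)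

variable {F : Type} [Field F] [Algebra ℂ F] {k r : ℕ} {S : Subalgebra ℂ F} {p : Ideal S}
  {x : Fin k → F} {t : Fin r → S}

/-- a function which is killed by the derivations along the parameters is regular -/
theorem mem_lo {N : ℕ} (hA : Aff N S) (hp : p.IsPrime) (mem : ∀ j, ∃ s ∈ p, (s : F) = x j)
    (gen : ∀ a ∈ p, ∃ c : Fin k → F, (∀ j, c j ∈ Lo S p) ∧ (a : F) = ∑ j, c j * x j)
    (D : Fin k → Derivation ℂ F F) (hD : ∀ i j, D i (x j) = if i = j then 1 else 0)
    (pre : ∀ j, ∀ a ∈ Lo S p, D j a ∈ Lo S p) {a : F} (ha : ∀ j, D j a = 0) : a ∈ Lo S p := by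
  have : IsFractionRing S F := IsFractionRing.of_field S F hA.fr
  have : Algebra.FiniteType ℂ S := ⟨(Subalgebra.fg_top S).2 hA.fg⟩
  have : IsNoetherianRing S := Algebra.FiniteType.isNoetherianRing ℂ S
  let O := Localization.subalgebra.ofField F p.primeCompl p.primeCompl_le_nonZeroDivisors
  have mo : ∀ u : F, u ∈ O ↔ u ∈ Lo S p := fun u =>
    ⟨fun ⟨s, w, hw, e⟩ => ⟨s, w, hw, e.trans (div_eq_mul_inv _ _).symm⟩,
      fun ⟨s, w, hw, e⟩ => ⟨s, w, hw, e.trans (div_eq_mul_inv _ _)⟩⟩
  have : IsLocalRing O := IsLocalization.AtPrime.isLocalRing O p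
  have : IsNoetherianRing O := IsLocalization.isNoetherianRing p.primeCompl O inferInstance
  let _ : Algebra ℚ O := ((algebraMap S O).comp ((algebraMap ℂ S).comp (algebraMap ℚ ℂ))).toAlgebra
  choose s hs es using mem
  have hx : Ideal.span (range fun j => algebraMap S O (s j)) = maximalIdeal O := by
    rw [← IsLocalization.AtPrime.map_eq_maximalIdeal p O]
    refine le_antisymm (Ideal.span_le.2 ?_) (Ideal.map_le_iff_le_comap.2 fun b hb => ?_)
    · rintro _ ⟨j, rfl⟩
      exact Ideal.mem_map_of_mem _ (hs j)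
    · obtain ⟨c, hc, e⟩ := gen b hb
      refine Ideal.mem_comap.2 (Ideal.mem_span_range_iff_exists_fun.2
        ⟨fun j => ⟨c j, (mo _).2 (hc j)⟩, Subtype.ext ?_⟩)
      rw [AddSubmonoidClass.coe_finset_sum]
      exact (Finset.sum_congr rfl fun j _ => congrArg (c j * ·) (es j)).trans e.symm
  let d : Fin k → O →+ O := fun i =>
    { toFun := fun u => ⟨D i u, (mo _).2 (pre i _ ((mo _).1 u.2))⟩
      map_zero' := Subtype.ext (map_zero (D i))
      map_add' := fun u v => Subtype.ext (map_add (D i) (u : F) v) }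
  let J : Ideal O :=
    { carrier := {u | (u : F) * a ∈ O}
      zero_mem' := by
        change (0 : F) * a ∈ O
        rw [zero_mul]
        exact zero_mem _
      add_mem' := fun {u v} hu hv => by
        change ((u : F) + v) * a ∈ O
        rw [add_mul]
        exact add_mem hu hv
      smul_mem' := fun c u hu => by
        change (c : F) * u * a ∈ O
        rw [mul_assoc]
        exact mul_mem c.2 hu }
  by_cases h1 : J = ⊤
  · have : (1 : O) ∈ J := h1 ▸ Submodule.mem_top
    exact (mo a).1 (one_mul a ▸ this)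
  have h0 := eq_bot_of_der hx d (fun i u v => Subtype.ext ((D i).leibniz (u : F) v))
    (fun i j => Subtype.ext (by
      change D i (s j) = _
      rw [es, hD]
      split_ifs <;> rfl))
    (J := J) (fun i u hu => by
      have := (mo _).2 (pre i _ ((mo _).1 hu))
      rw [Derivation.leibniz, ha, smul_zero, zero_add, smul_eq_mul, mul_comm] at this
      exact this) h1
  obtain ⟨u, w, e⟩ := hA.fr a
  by_cases w0 : (w : F) = 0
  · exact ⟨0, 1, p.ne_top_iff_one.1 hp.ne_top, by simp [e, w0]⟩
  have : algebraMap S O w ∈ J := by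
    change (w : F) * a ∈ O
    rw [e, mul_div_cancel₀ _ w0]
    exact (algebraMap S O u).2
  rw [h0, Ideal.mem_bot] at this
  exact (w0 (congrArg Subtype.val this)).elim

/-- the algebraic closure of `ℂ(t)` lies in the local ring -/
theorem cl_lo (h : DER) (hp : Par S p x t) {a : F}
    (ha : a ∈ cl (IntermediateField.adjoin ℂ (range fun i => (t i : F)))) : a ∈ Lo S p := by
  obtain ⟨D, hD, pre, -⟩ := h k r F S p x t hp
  have : CharZero F := charZero_of_injective_algebraMap (algebraMap ℂ F).injective
  refine mem_lo hp.aff hp.pri hp.mem hp.gen (fun j => D (Fin.castAdd r j)) (fun i j => ?_)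
    (fun j => pre _) fun j => ?_
  · have := hD.dual (Fin.castAdd r i) (Fin.castAdd r j)
    rw [Fin.append_left] at this
    rw [this]
    simp [Fin.ext_iff]
  · have c := Cb.dr_of (D (Fin.castAdd r j))
    have le : (IntermediateField.adjoin ℂ (range fun i => (t i : F))).toSubfield ≤ c.ker :=
      Subfield.closure_le.2 (by
        rintro _ (⟨b, rfl⟩ | ⟨i, rfl⟩)
        · exact (D _).map_algebraMap b
        · have := hD.dual (Fin.castAdd r j) (Fin.natAdd k i)
          rw [Fin.append_right, if_neg (by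
            intro e
            have := congrArg Fin.val e
            simp at this
            omega)] at this
          exact this)
    exact c.alg ((mem_algebraicClosure_iff.1 ha).ringHom_of_comp_eq (Subfield.inclusion le)
      (RingHom.id F) (RingHom.injective _) rfl)

/-- **fixL**: the inertia group fixes the algebraic closure of `ℂ(t)` -/
theorem fixL (h : DER) (hp : Par S p x t) (σ : F ≃ₐ[ℂ] F) (hs : ∀ a ∈ S, σ a ∈ S)
    (hi : Inr S p σ) (ht : ∀ i, σ (t i) = t i) {a : F}
    (ha : a ∈ cl (IntermediateField.adjoin ℂ (range fun i => (t i : F)))) : σ a = a := by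
  set K := IntermediateField.adjoin ℂ (range fun i => (t i : F))
  have fx : ∀ c : K, σ c = c := fun c =>
    (Subfield.closure_le (t := RingHom.eqLocusField (σ : F →+* F) (RingHom.id F))).2 (by
      rintro _ (⟨b, rfl⟩ | ⟨i, rfl⟩)
      · exact σ.commutes b
      · exact ht i) c.2
  have ha' : σ a ∈ cl K := mem_algebraicClosure_iff.2
    ((mem_algebraicClosure_iff.1 ha).ringHom_of_comp_eq (RingHom.id K) (σ : F →+* F) Function.injective_id (RingHom.ext fun c => (fx c).symm))
  by_contra ne
  obtain ⟨s, u, hu, e⟩ := cl_lo h hp ha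
  obtain ⟨s', u', hu', e'⟩ := cl_lo h hp (inv_mem (sub_mem ha' ha))
  obtain ⟨b, hb, eb⟩ := hi s
  obtain ⟨c, hc, ec⟩ := hi u
  have nz : ∀ w : S, w ∉ p → (w : F) ≠ 0 := fun w hw w0 =>
    hw ((Subtype.ext w0 : w = 0) ▸ p.zero_mem)
  have huc : u + c ∉ p := fun k => hu ((Ideal.add_mem_iff_left p hc).1 k)
  have k1 : σ a - a = (b * u - s * c) / (u * (u + c)) := by
    have u0 := nz u hu
    have u1 : (u : F) + c ≠ 0 := nz _ huc
    rw [e, map_div₀, sub_eq_iff_eq_add'.1 eb, sub_eq_iff_eq_add'.1 ec]
    field_simp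
    ring
  have k2 : u * (u + c) * u' = (b * u - s * c) * s' := Subtype.ext (by
    have d0 := sub_ne_zero.2 ne
    have u0 := nz u hu
    have u1 : (u : F) + c ≠ 0 := nz _ huc
    have u2 := nz u' hu'
    push_cast
    rw [(eq_div_iff (mul_ne_zero u0 u1)).1 k1 |>.symm, (eq_div_iff u2).1 e' |>.symm]
    field_simp)
  have k3 : u * (u + c) * u' ∈ p :=
    k2 ▸ p.mul_mem_right _ (sub_mem (p.mul_mem_right _ hb) (p.mul_mem_left _ hc))
  rcases hp.pri.mem_or_mem k3 with k | k
  · exact (hp.pri.mem_or_mem k).elim hu huc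
  · exact hu' k

end Vale.Agent.P283R.Gf
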