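import Vale.Agent.P287D.Gf.Abs

/-!
# P283R, the geometric generic point: algebra
-/

set_option linter.all false

open Set Polynomial TensorProduct

noncomputable section

namespace Vale.Agent.P283R.Gf

open Vale.Agent.P287D.Gf

/-- after the extension of the constants every function is a constant modulo `p` -/
theorem unram {R S S' κ : Type} [CommRing R] [IsDomain R] [CharZero R] [CommRing S] [CommRing S']
    [Field κ] [Algebra ℂ S'] [Algebra ℂ κ] (ψ : S →+* S') (ρ : S' →ₐ[ℂ] κ) (p : Ideal S)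
    (hp : ∀ a, a ∈ p ↔ ρ (ψ a) = 0) (ev : R →+* S) (j : R →+* ℂ)
    (hj : ∀ a, ψ (ev a) = algebraMap ℂ S' (j a)) (ind : ∀ a, ev a ∈ p → a = 0) (s : S)
    (alg : ∃ q : R[X], q ≠ 0 ∧ q.eval₂ ev s ∈ p) :
    ∃ (c : ℂ) (u : S'), ρ u ≠ 0 ∧ ∃ b ∈ p, (ψ s - algebraMap ℂ S' c) * u = ψ b := by
  classical
  have ex : ∃ n, ∃ q : R[X], q ≠ 0 ∧ q.eval₂ ev s ∈ p ∧ q.natDegree = n :=
    let ⟨q, a, b⟩ := alg
    ⟨_, q, a, b, rfl⟩
  obtain ⟨q, q0, hq, hd⟩ := Nat.find_spec ex
  have d0 : q.natDegree ≠ 0 := fun h => by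
    rw [eq_C_of_natDegree_eq_zero h, eval₂_C] at hq
    exact q0 (by rw [eq_C_of_natDegree_eq_zero h, ind _ hq, map_zero])
  have d1 : (derivative q).eval₂ ev s ∉ p := fun h =>
    Nat.find_min ex (hd ▸ natDegree_derivative_lt d0)
      ⟨_, fun e => d0 (natDegree_eq_zero_of_derivative_eq_zero e), h, rfl⟩
  have e : ∀ q : R[X], ψ (q.eval₂ ev s) = aeval (ψ s) (q.map j) := fun q => by
    rw [hom_eval₂, aeval_def, eval₂_map]
    exact congrArg (fun f => eval₂ f (ψ s) q) (RingHom.ext hj)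
  have h0 : aeval (ρ (ψ s)) (q.map j) = 0 := by rw [aeval_algHom_apply, ← e, ← hp]; exact hq
  have h1 : aeval (ρ (ψ s)) (derivative (q.map j)) ≠ 0 := by
    rw [derivative_map, aeval_algHom_apply, ← e, Ne, ← hp]; exact d1
  obtain ⟨c, hc⟩ := mem_range (C := ℂ) (x := ρ (ψ s))
    ⟨q.map j, fun z => h1 (by rw [z, derivative_zero, map_zero]), h0⟩
  have h2 : IsRoot (q.map j) c := (algebraMap ℂ κ).injective (by
    rw [← aeval_algebraMap_apply_eq_algebraMap_eval, hc, h0, map_zero])
  obtain ⟨h, hh⟩ := dvd_iff_isRoot.2 h2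
  refine ⟨c, aeval (ψ s) h, fun z => h1 ?_, _, hq, ?_⟩
  · rw [← aeval_algHom_apply] at z
    rw [hh, derivative_mul, map_add, map_mul, map_mul, z, mul_zero, map_sub, aeval_X, aeval_C, hc]
    simp
  · rw [e, hh, map_mul, map_sub, aeval_X, aeval_C]

section

variable {L K C K' : Type} [Field L] [Field K] [Field C] [Field K'] [Algebra L K] [Algebra L C]
  [Algebra K K'] [Algebra C K'] [Algebra L K'] [IsScalarTower L K K'] [IsScalarTower L C K']
  [Algebra.IsAlgebraic L C]

/-- automorphisms over the base extend to the generic fibre -/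
theorem ext_aut (h : BE L K C K') (σ : K ≃ₐ[L] K) : ∃ τ : K' ≃ₐ[C] K',
    ∀ f, τ (algebraMap K K' f) = algebraMap K K' (σ f) := by
  let μ : C ⊗[L] K →ₐ[C] K' := Algebra.TensorProduct.lift (Algebra.ofId C K')
    (IsScalarTower.toAlgHom L K K') fun _ _ => Commute.all _ _
  have m : ∀ c f, μ (c ⊗ₜ f) = algebraMap C K' c * algebraMap K K' f := fun c f => rfl
  have hi : Function.Injective μ := by
    let b := Module.Basis.ofVectorSpace L K
    refine LinearMap.injective_of_linearIndependent (f := μ.toLinearMap)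
      (Algebra.TensorProduct.basis C b).span_eq ?_
    have : μ.toLinearMap ∘ Algebra.TensorProduct.basis C b = fun i => algebraMap K K' (b i) := by
      funext i
      simp [Algebra.TensorProduct.basis_apply, m]
    rw [this]
    exact h.dis' b.linearIndependent
  have hs : Function.Surjective μ := fun x => by
    have : Submodule.span C (range (algebraMap K K')) ≤ LinearMap.range μ.toLinearMap :=
      Submodule.span_le.2 (by
        rintro _ ⟨f, rfl⟩
        exact ⟨1 ⊗ₜ f, by simp [m]⟩)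
    exact this (h.span x)
  let e := AlgEquiv.ofBijective μ ⟨hi, hs⟩
  have he : ∀ f, e.symm (algebraMap K K' f) = 1 ⊗ₜ f := fun f =>
    e.symm_apply_eq.2 ((by simp : _ = _).trans (m 1 f).symm)
  refine ⟨e.symm.trans ((Algebra.TensorProduct.congr (AlgEquiv.refl (R := C) (A₁ := C)) σ).trans e),
    fun f => ?_⟩
  rw [AlgEquiv.trans_apply, he]
  exact (m 1 (σ f)).trans (by simp)

end

end Vale.Agent.P283R.Gf
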