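import Vale.Agent.P283R.Tp.St
import Vale.Agent.P283R.Gf.Alg
import Vale.Agent.P287D.Gf.Res
import Vale.Agent.P287D.Cb.Row

/-!
# P283R, the geometric generic point: the closed point upstairs
-/

set_option linter.all false

open Set Polynomial

noncomputable section

namespace Vale.Agent.P283R.Gf

open Vale.Agent.P287D Vale.Agent.P287D.Cb

variable {F F' : Type} [Field F] [Algebra ℂ F] [Field F'] [Algebra ℂ F'] {k r : ℕ}

theorem ff_cl {n : ℕ} (hF : FF F n) {y : Fin r → F} (hy : AlgebraicIndependent ℂ y) :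
    FF (cl (IntermediateField.adjoin ℂ (range y))) r := by
  obtain ⟨m, -, hm⟩ := Gm.ff_sub hF (cl (IntermediateField.adjoin ℂ (range y)))
  have e1 : Algebra.trdeg ℂ (IntermediateField.adjoin ℂ (range y)) = r := by
    have := IsLocalization.isAlgebraic (FractionRing (MvPolynomial (Fin r) ℂ))
      (nonZeroDivisors (MvPolynomial (Fin r) ℂ))
    rw [← hy.aevalEquivField.trdeg_eq, ← trdeg_add_eq ℂ (MvPolynomial (Fin r) ℂ),
      MvPolynomial.trdeg_of_isDomain, trdeg_eq_zero (R := MvPolynomial (Fin r) ℂ)]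
    simp
  have e2 := trdeg_add_eq ℂ (IntermediateField.adjoin ℂ (range y))
    (A := algebraicClosure (IntermediateField.adjoin ℂ (range y)) F)
  have e3 : Algebra.trdeg ℂ (algebraicClosure (IntermediateField.adjoin ℂ (range y)) F) = m :=
    hm.trdeg
  rw [e1, e3, trdeg_eq_zero (R := IntermediateField.adjoin ℂ (range y)), add_zero,
    Nat.cast_inj] at e2
  exact e2 ▸ hm

section lo

variable {S : Subalgebra ℂ F} {p : Ideal S}

theorem lo_of (hp : p.IsPrime) (a : S) : (a : F) ∈ Lo S p :=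
  ⟨a, 1, (Ideal.ne_top_iff_one p).1 hp.ne_top, by simp⟩

theorem ne_of {a : S} (h : a ∉ p) : (a : F) ≠ 0 := fun e =>
  h ((Subtype.ext e : a = 0) ▸ zero_mem p)

theorem lo_add (hp : p.IsPrime) {a b : F} (ha : a ∈ Lo S p) (hb : b ∈ Lo S p) :
    a + b ∈ Lo S p := by
  obtain ⟨s, t, ht, rfl⟩ := ha
  obtain ⟨s', t', ht', rfl⟩ := hb
  refine ⟨s * t' + t * s', t * t', fun h => (hp.mem_or_mem h).elim ht ht', ?_⟩
  rw [div_add_div _ _ (ne_of ht) (ne_of ht')]
  rfl

theorem lo_mul (hp : p.IsPrime) {a b : F} (ha : a ∈ Lo S p) (hb : b ∈ Lo S p) :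
    a * b ∈ Lo S p := by
  obtain ⟨s, t, ht, rfl⟩ := ha
  obtain ⟨s', t', ht', rfl⟩ := hb
  refine ⟨s * s', t * t', fun h => (hp.mem_or_mem h).elim ht ht', ?_⟩
  rw [div_mul_div_comm]
  rfl

theorem lo_ring {P : Pl F} (h : Cen S p P) {a : F} (ha : a ∈ Lo S p) : a ∈ P.ring := by
  obtain ⟨s, t, ht, rfl⟩ := ha
  rw [div_eq_mul_inv]
  exact mul_mem (h s).1 (inv_mem_of fun m => ht ((h t).2.2 ((rd_eq_zero (h t).1).2 m)))

/-- the ideal of the local ring generated by `x` -/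
def Cm (S : Subalgebra ℂ F) (p : Ideal S) (x : Fin k → F) (a : F) : Prop :=
  ∃ c : Fin k → F, (∀ j, c j ∈ Lo S p) ∧ a = ∑ j, c j * x j

variable {x : Fin k → F}

theorem cm_zero (hp : p.IsPrime) : Cm S p x 0 := ⟨0, fun _ => lo_of hp 0, by simp⟩

theorem Cm.add (hp : p.IsPrime) {a b : F} (ha : Cm S p x a) (hb : Cm S p x b) :
    Cm S p x (a + b) := by
  obtain ⟨c, hc, rfl⟩ := ha
  obtain ⟨d, hd, rfl⟩ := hb
  exact ⟨c + d, fun j => lo_add hp (hc j) (hd j), by simp [add_mul, Finset.sum_add_distrib]⟩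

theorem Cm.mul (hp : p.IsPrime) {a b : F} (ha : a ∈ Lo S p) (hb : Cm S p x b) :
    Cm S p x (a * b) := by
  obtain ⟨d, hd, rfl⟩ := hb
  exact ⟨fun j => a * d j, fun j => lo_mul hp ha (hd j), by simp [Finset.mul_sum, mul_assoc]⟩

theorem Cm.mx {P : Pl F} (h : Cen S p P) (hx : ∀ j, Mx P (x j)) {a : F} (ha : Cm S p x a) :
    Mx P a := by
  obtain ⟨d, hd, rfl⟩ := ha
  exact Finset.sum_induction _ (Mx P) (fun _ _ => Mx.add) mx_zero
    fun j _ => (hx j).mul (lo_ring h (hd j))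

end lo

variable {L : IntermediateField ℂ F} {φ : F →+* F'}

theorem rd_iff {P : Pl F'} {Q : Pl F} (h : GF L φ) (l : Lies φ P Q) {a : F} (ha : a ∈ Q.ring) :
    P.rd (φ a) = 0 ↔ Q.rd a = 0 := by
  rw [rd_eq_zero ha, rd_eq_zero ((l a).1 ha), mx_iff, mx_iff, h.ord_eq l, _root_.map_eq_zero]

/-- the closed point of the generic fibre -/
theorem up (h : GF L φ) (hF : FF F' k) {S : Subalgebra ℂ F} {p : Ideal S} {x : Fin k → F}
    {t : Fin r → S} (hp : Par S p x t) (ht : ∀ i, (t i : F) ∈ L) {P : Pl F'} {Q : Pl F}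
    (l : Lies φ P Q) (hQ : Cen S p Q) : ∃ (S' : Subalgebra ℂ F') (p' : Ideal S') (ψ : S →+* S'),
      (∀ a, (ψ a : F') = φ a) ∧ S' ≤ Algebra.adjoin ℂ (φ '' S) ∧ (∀ a, a ∈ p ↔ ψ a ∈ p') ∧
      Cen S' p' P ∧ Ch S' p' fun j => φ (x j) := by
  classical
  obtain ⟨s, hs⟩ := hp.aff.fg
  have hc : ∀ c, φ (algebraMap ℂ F c) ∈ range (algebraMap ℂ F') :=
    fun c => h.cst _ (L.algebraMap_mem c)
  let S' := Algebra.adjoin ℂ (φ '' s)
  have sS : (s : Set F) ⊆ S := hs ▸ Algebra.subset_adjoin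
  have m1 : ∀ a ∈ S, φ a ∈ S' := fun a ha => by
    rw [← hs] at ha
    induction ha using Algebra.adjoin_induction with
    | mem a ha => exact Algebra.subset_adjoin ⟨a, ha, rfl⟩
    | algebraMap c => obtain ⟨d, hd⟩ := hc c; exact hd ▸ S'.algebraMap_mem d
    | add a b _ _ ha hb => rw [map_add]; exact add_mem ha hb
    | mul a b _ _ ha hb => rw [map_mul]; exact mul_mem ha hb
  have m2 : ∀ a ∈ S', a ∈ P.ring := fun a ha => adj_mem (by
    rintro _ ⟨b, hb, rfl⟩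
    exact (l b).1 (hQ ⟨b, sS hb⟩).1) ha
  let ψ : S →+* S' := (φ.comp S.val.toRingHom).codRestrict S' fun a => m1 a a.2
  let ρ := rdA S' m2
  let p' : Ideal S' := RingHom.ker ρ.toRingHom
  have pr : p'.IsPrime := RingHom.ker_isPrime _
  have cn : Cen S' p' P := fun a => ⟨m2 a a.2, Iff.rfl⟩
  have key : ∀ a, a ∈ p ↔ ρ (ψ a) = 0 := fun a => (hQ a).2.trans (rd_iff h l (hQ a).1).symm
  have lo : ∀ a ∈ Lo S p, φ a ∈ Lo S' p' := by
    rintro _ ⟨a, b, hb, rfl⟩
    exact ⟨ψ a, ψ b, fun e => hb ((key b).2 e), map_div₀ φ _ _⟩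
  let ev : MvPolynomial (Fin r) ℂ →+* S := (MvPolynomial.aeval t : _ →ₐ[ℂ] S).toRingHom
  obtain ⟨j, hj⟩ := Gf.exists_j ((φ.comp S.val.toRingHom).comp ev) fun a => h.cst _ (by
    change ((MvPolynomial.aeval t a : S) : F) ∈ L
    induction a using MvPolynomial.induction_on with
    | C c => simpa using L.algebraMap_mem c
    | add a b ha hb => rw [map_add]; exact add_mem ha hb
    | mul_X a i ha => rw [map_mul, MvPolynomial.aeval_X]; exact mul_mem ha (ht i))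
  have A : ∀ a : S, ∃ c : ℂ, Cm S' p' (fun j => φ (x j)) (φ a - algebraMap ℂ F' c) := fun a => by
    obtain ⟨c, u, hu, b, hb, e⟩ := unram ψ ρ p key ev j (fun a => Subtype.ext (hj a).symm) hp.ind
      a (hp.alg a)
    obtain ⟨d, hd, e'⟩ := hp.gen b hb
    have e2 : (φ a - algebraMap ℂ F' c) * u = φ b := congrArg Subtype.val e
    refine ⟨c, ?_⟩
    rw [(eq_div_iff (ne_of (p := p') hu)).2 e2, div_eq_inv_mul]
    refine Cm.mul pr ⟨1, u, hu, by simp⟩ ⟨fun j => φ (d j), fun j => lo _ (hd j), ?_⟩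
    rw [e', map_sum]
    simp only [map_mul]
  have B : ∀ a ∈ S', ∃ c : ℂ, Cm S' p' (fun j => φ (x j)) (a - algebraMap ℂ F' c) := fun a ha => by
    induction ha using Algebra.adjoin_induction with
    | mem a ha => obtain ⟨b, hb, rfl⟩ := ha; exact A ⟨b, sS hb⟩
    | algebraMap c => exact ⟨c, by rw [sub_self]; exact cm_zero pr⟩
    | add a b _ _ ha hb =>
      obtain ⟨c, hc⟩ := ha
      obtain ⟨d, hd⟩ := hb
      exact ⟨c + d, by convert hc.add pr hd using 1; rw [map_add]; ring⟩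
    | mul a b ha' _ ha hb =>
      obtain ⟨c, hc⟩ := ha
      obtain ⟨d, hd⟩ := hb
      exact ⟨c * d, by
        convert (Cm.mul pr (lo_of pr ⟨a, ha'⟩) hd).add pr
          (Cm.mul pr (lo_of pr (algebraMap ℂ S' d)) hc) using 1
        rw [map_mul]
        change _ = a * _ + algebraMap ℂ F' d * _
        ring⟩
  have xm : ∀ j, ∃ s ∈ p', (s : F') = φ (x j) := fun j =>
    let ⟨a, ha, e⟩ := hp.mem j
    ⟨ψ a, (key a).1 ha, congrArg φ e⟩
  have xx : ∀ j, Mx P (φ (x j)) := fun j =>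
    let ⟨a, ha, e⟩ := xm j
    e ▸ (rd_eq_zero (m2 a a.2)).1 ha
  have C : ∀ (a : S') (c : ℂ), Cm S' p' (fun j => φ (x j)) (a - algebraMap ℂ F' c) →
      a - algebraMap ℂ S' c ∈ p' := fun a c hc =>
    (rd_eq_zero (m2 _ (a - algebraMap ℂ S' c).2)).2 (hc.mx cn xx)
  refine ⟨S', p', ψ, fun _ => rfl, Algebra.adjoin_mono (image_mono sS), key, cn,
    ⟨hF, Subalgebra.fg_def.2 ⟨_, s.finite_toSet.image φ, rfl⟩, fun a => ?_⟩, pr, xm,
    fun a ha => ?_, fun a => (B a a.2).imp (C a)⟩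
  · have le : Subfield.closure (range φ ∪ range (algebraMap ℂ F')) ≤
        Subfield.closure (S' : Set F') := Subfield.closure_le.2 (by
      rintro _ (⟨f, rfl⟩ | ⟨c, rfl⟩)
      · obtain ⟨b, d, rfl⟩ := hp.aff.fr f
        rw [map_div₀]
        exact div_mem (Subfield.subset_closure (m1 b b.2)) (Subfield.subset_closure (m1 d d.2))
      · exact Subfield.subset_closure (S'.algebraMap_mem c))
    obtain ⟨b, hb, d, hd, e⟩ := Subfield.mem_closure_iff.1 (le (h.gen ▸ Subfield.mem_top a))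
    have le2 : Subring.closure (S' : Set F') ≤ S'.toSubring := Subring.closure_le.2 fun _ z => z
    exact ⟨⟨b, le2 hb⟩, ⟨d, le2 hd⟩, e.symm⟩
  · obtain ⟨c, hc⟩ := B a a.2
    have h1 : algebraMap ℂ S' c ∈ p' := by simpa using sub_mem ha (C a c hc)
    have h2 : c = 0 := by
      by_contra c0
      exact pr.ne_top (Ideal.eq_top_of_isUnit_mem _ h1 ((IsUnit.mk0 c c0).map _))
    rwa [h2, map_zero, sub_zero] at hc

end Vale.Agent.P283R.Gf
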