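import Vale.Agent.P283R.Gf.Up

/-!
# P283R, the geometric generic point: transfer
-/

set_option linter.all false

open Set Polynomial

noncomputable section

namespace Vale.Agent.P283R.Gf

open Vale.Agent.P287D Vale.Agent.P287D.Cb

variable {F F' : Type} [Field F] [Algebra ℂ F] [Field F'] [Algebra ℂ F'] {k r : ℕ}
  {L : IntermediateField ℂ F} {φ : F →+* F'}

/-- the lift of a group to the generic fibre -/
def lift (φ : F →+* F') (A : Subgroup (F ≃ₐ[ℂ] F)) : Subgroup (F' ≃ₐ[ℂ] F') where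
  carrier := {τ | ∃ σ ∈ A, ∀ f, τ (φ f) = φ (σ f)}
  mul_mem' := fun ⟨a, ha, e⟩ ⟨b, hb, e'⟩ => ⟨a * b, mul_mem ha hb, fun f => by
    rw [AlgEquiv.mul_apply, e', e, AlgEquiv.mul_apply]⟩
  one_mem' := ⟨1, one_mem A, fun _ => rfl⟩
  inv_mem' := fun {τ} ⟨a, ha, e⟩ => ⟨a⁻¹, inv_mem ha, fun f => by
    change τ.symm (φ f) = φ (a.symm f)
    rw [AlgEquiv.symm_apply_eq, e, AlgEquiv.apply_symm_apply]⟩

variable {A : Subgroup (F ≃ₐ[ℂ] F)}

theorem lift_fin (h : GF L φ) (hA : Finite A) : Finite (lift φ A) := by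
  refine Finite.of_injective (fun τ : lift φ A => (⟨_, τ.2.choose_spec.1⟩ : A)) fun a b e => ?_
  have e' : a.2.choose = b.2.choose := congrArg Subtype.val e
  refine Subtype.ext (AlgEquiv.ext fun z => ?_)
  refine Submodule.span_induction ?_ (by simp) (fun _ _ _ _ u v => by simp only [map_add, u, v])
    (fun _ _ _ u => by simp only [map_smul, u]) (h.span z)
  rintro _ ⟨f, rfl⟩
  rw [a.2.choose_spec.2, b.2.choose_spec.2, e']

theorem lift_ex (h : GF L φ) {σ : F ≃ₐ[ℂ] F} (hσ : σ ∈ A) (hL : ∀ a ∈ L, σ a = a) :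
    ∃ τ ∈ lift φ A, ∀ f, τ (φ f) = φ (σ f) := h.elim fun e b => by
  subst e
  obtain ⟨τ, hτ⟩ := ext_aut b (AlgEquiv.ofRingEquiv (f := σ.toRingEquiv) fun a => hL a a.2)
  exact ⟨τ, ⟨σ, hσ, hτ⟩, hτ⟩

theorem lift_eig (h : GF L φ) {f : F} (hf : Eig A f) : Eig (lift φ A) (φ f) := by
  rintro τ ⟨σ, hσ, e⟩
  obtain ⟨c, hc⟩ := hf σ hσ
  obtain ⟨d, hd⟩ := h.cst _ (L.algebraMap_mem c)
  exact ⟨d, by rw [e, hc, Algebra.smul_def, Algebra.smul_def, map_mul, hd]⟩

theorem ld_eq (h : GF L φ) (hK : FF F (k + r)) (hF : FF F' k) {x : Fin k → F} {t : Fin r → F}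
    (ht : ∀ i, t i ∈ L) (hi : AlgebraicIndependent ℂ (Fin.append x t)) {P : Pl F'} {Q : Pl F}
    (l : Lies φ P Q) (m : ℕ) (f : F) :
    ld (fun j => φ (x j)) m (φ f) P = ld (Fin.append x t) m f Q := by
  have a := alg_of_gf h
  have := rel_eq hK hF (fun c => h.cst _ (L.algebraMap_mem c)) a.alc l (a.sp l)
    (fun j => h.cst _ (ht j)) hi
  rw [h.e_one l] at this
  unfold ld
  rw [h.ord_eq l]
  push_cast at this
  linarith

theorem hor {S : Subalgebra ℂ F} {p : Ideal S} {x : Fin k → F} {t : Fin r → S} (hp : Par S p x t)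
    {Q : Pl F} (hQ : Cen S p Q) :
    Hor (cl (IntermediateField.adjoin ℂ (range fun i => (t i : F)))) Q := by
  intro a ha
  have le : ∀ b ∈ IntermediateField.adjoin ℂ (range fun i => (t i : F)), b ∈ Q.ring := by
    intro b hb
    obtain ⟨u, v, rfl⟩ := (IntermediateField.mem_adjoin_range_iff ℂ _ b).1 hb
    have e : ∀ w : MvPolynomial (Fin r) ℂ, MvPolynomial.aeval (fun i => (t i : F)) w =
        (MvPolynomial.aeval t w : S) := fun w =>
      (MvPolynomial.comp_aeval_apply t S.val w).symm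
    rw [e, e]
    by_cases v0 : v = 0
    · simp [v0, zero_mem]
    · exact lo_ring hQ ⟨_, _, fun z => v0 (hp.ind v z), rfl⟩
  obtain ⟨q, q1, hq⟩ := (mem_algebraicClosure_iff.1 ha).isIntegral
  let j : IntermediateField.adjoin ℂ (range fun i => (t i : F)) →+* Q.ring :=
    (algebraMap _ F).codRestrict Q.ring fun b => le b b.2
  obtain ⟨y, hy⟩ := IsIntegrallyClosed.algebraMap_eq_of_integral (R := Q.ring) (x := a)
    ⟨q.map j, q1.map j, by rw [eval₂_map]; exact hq⟩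
  exact hy ▸ y.2

/-- the transfer -/
theorem tr {n m : ℕ} {ε : ℝ} (H : ∀ (F : Type) [Field F] [Algebra ℂ F] (S : Subalgebra ℂ F)
      (p : Ideal S) (x : Fin k → F) (A : Subgroup (F ≃ₐ[ℂ] F)) (f : F), Ch S p x → Finite A →
      Stab A S → (∀ σ ∈ A, Inr S p σ) → (∀ j, Eig A (x j)) → f ∈ Lo S p → f ≠ 0 → Eig A f →
      Hyp ε A S p x m f → Mon n m A S p x x f)
    {S : Subalgebra ℂ F} {p : Ideal S} {x : Fin k → F} {t : Fin r → S} {f : F} (hp : Par S p x t)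
    (hi : AlgebraicIndependent ℂ (Fin.append x fun i => (t i : F)))
    (hL : ∀ σ ∈ A, ∀ a ∈ cl (IntermediateField.adjoin ℂ (range fun i => (t i : F))), σ a = a)
    (hA : Finite A) (hs : Stab A S) (hI : ∀ σ ∈ A, Inr S p σ) (hx : ∀ j, Eig A (x j))
    (hf : f ∈ Lo S p) (f0 : f ≠ 0) (he : Eig A f)
    (hy : Hyp ε A S p (Fin.append x fun i => (t i : F)) m f) :
    Mon n m A S p x (Fin.append x fun i => (t i : F)) f := by
  intro Q hQ
  have it : AlgebraicIndependent ℂ fun i => (t i : F) := by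
    convert hi.comp (Fin.natAdd k) (Fin.natAdd_injective _ _) using 1
    funext i
    simp
  have fl := ff_cl hp.aff.ff it
  obtain ⟨F', _, _, φ, h⟩ := g1 F _ (Gf.cld_cl _) ⟨r, fl⟩
  have hF := h.toExt.ff fl hp.aff.ff
  have ht : ∀ i, (t i : F) ∈ cl (IntermediateField.adjoin ℂ (range fun i => (t i : F))) :=
    fun i => (algebraicClosure _ F).algebraMap_mem
      (⟨t i, IntermediateField.subset_adjoin _ _ ⟨i, rfl⟩⟩ :
        IntermediateField.adjoin ℂ (range fun i => (t i : F)))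
  obtain ⟨P, l⟩ := h.above fl (hor hp hQ)
  obtain ⟨S', p', ψ, e, le, key, cn, ch⟩ := up h hF hp ht l hQ
  have st : ∀ τ ∈ lift φ A, ∀ a ∈ S', ∃ b ∈ p', τ a - a = (b : F') := by
    rintro τ ⟨σ, hσ, eτ⟩ a ha
    have : a ∈ S' ∧ ∃ b ∈ p', τ a - a = (b : F') := by
      have := le ha
      clear ha
      induction this using Algebra.adjoin_induction with
      | mem a ha =>
        obtain ⟨a, ha, rfl⟩ := ha
        obtain ⟨b, hb, eb⟩ := hI σ hσ ⟨a, ha⟩
        exact ⟨e ⟨a, ha⟩ ▸ (ψ _).2, ψ b, (key b).1 hb, by rw [eτ, e, ← eb, map_sub]⟩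
      | algebraMap c => exact ⟨S'.algebraMap_mem c, 0, zero_mem _, by simp⟩
      | add a b _ _ ha hb =>
        obtain ⟨ha, c, hc, ec⟩ := ha
        obtain ⟨hb, d, hd, ed⟩ := hb
        exact ⟨add_mem ha hb, c + d, add_mem hc hd, by
          rw [map_add, Subalgebra.coe_add, ← ec, ← ed]; ring⟩
      | mul a b _ _ ha hb =>
        obtain ⟨ha, c, hc, ec⟩ := ha
        obtain ⟨hb, d, hd, ed⟩ := hb
        refine ⟨mul_mem ha hb, c * (⟨b, hb⟩ + d) + ⟨a, ha⟩ * d,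
          add_mem (p'.mul_mem_right _ hc) (p'.mul_mem_left _ hd), ?_⟩
        rw [map_mul, Subalgebra.coe_add, Subalgebra.coe_mul, Subalgebra.coe_mul,
          Subalgebra.coe_add, ← ec, ← ed]
        ring
    exact this.2
  obtain ⟨c, c1, c2⟩ := H F' S' p' (fun j => φ (x j)) (lift φ A) (φ f) ch (lift_fin h hA)
    (fun τ hτ a ha => by
      obtain ⟨b, -, eb⟩ := st τ hτ a ha
      rw [sub_eq_iff_eq_add.1 eb]
      exact add_mem b.2 ha)
    (fun τ hτ a => st τ hτ a a.2) (fun j => lift_eig h (hx j))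
    (by
      obtain ⟨a, b, hb, rfl⟩ := hf
      exact ⟨ψ a, ψ b, fun z => hb ((key b).2 z), by rw [map_div₀, e, e]⟩)
    ((map_ne_zero φ).2 f0) (lift_eig h he)
    (fun P' hP' n n0 hn => by
      obtain ⟨Q', l'⟩ := h.below hF P'
      have mem : ∀ a : S, (a : F) ∈ Q'.ring := fun a => (l' a).2 (e a ▸ (hP' (ψ a)).1)
      rw [ld_eq h hp.aff.ff hF ht hi l']
      refine hy Q' (fun a => ⟨mem a, ?_⟩) n n0 fun g g0 hg => ?_
      · rw [key, (hP' _).2, e, rd_iff h l' (mem a)]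
      · rw [← h.ord_eq l']
        refine hn _ ((map_ne_zero φ).2 g0) ?_
        rintro τ ⟨σ, hσ, eτ⟩
        rw [eτ, hg σ hσ]) P cn
  refine ⟨c, fun σ hσ => φ.injective ?_, ?_⟩
  · obtain ⟨τ, hτ, eτ⟩ := lift_ex h hσ (hL σ hσ)
    rw [← eτ]
    simp only [map_div₀ φ, map_mul φ, map_pow φ, map_prod φ]
    exact c1 τ hτ
  · rw [← ld_eq h hp.aff.ff hF ht hi l]
    simpa only [h.ord_eq l] using c2

end Vale.Agent.P283R.Gf
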