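import Mathlib

/-!
# P283R, block GF: generic smoothness
-/

set_option linter.all false

open MvPolynomial Algebra IsLocalRing

noncomputable section

namespace Vale.Agent.P283R.Gf

/-- an algebra with derivations dual to `t` is formally smooth over the polynomial ring in `t` -/
theorem fs_poly {R O ι : Type} [CommRing R] [CommRing O] [Algebra R O] [Fintype ι] [DecidableEq ι]
    [FormallySmooth R O] [Algebra (MvPolynomial ι R) O] [IsScalarTower R (MvPolynomial ι R) O]
    (δ : ι → Derivation R O O)
    (h : ∀ i j, δ i (algebraMap (MvPolynomial ι R) O (X j)) = if i = j then 1 else 0) :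
    FormallySmooth (MvPolynomial ι R) O := by
  refine .of_comp_surjective fun B _ _ I hI f => ?_
  let _ : Algebra R B := ((algebraMap (MvPolynomial ι R) B).comp (algebraMap R _)).toAlgebra
  have : IsScalarTower R (MvPolynomial ι R) B := .of_algebraMap_eq' rfl
  obtain ⟨g, hg⟩ := FormallySmooth.comp_surjective R O I hI (f.restrictScalars R)
  have hg' : ∀ a, Ideal.Quotient.mk I (g a) = f a := fun a => congr($hg a)
  let ε : ι → B := fun j => algebraMap _ B (X j : MvPolynomial ι R) -
    g (algebraMap _ O (X j : MvPolynomial ι R))
  have hε : ∀ j, ε j ∈ I := fun j => by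
    rw [← Ideal.Quotient.eq_zero_iff_mem, map_sub, hg', f.commutes]
    exact sub_self _
  have sq : ∀ x ∈ I, ∀ y ∈ I, x * y = 0 := fun x hx y hy => by
    have := Ideal.mul_mem_mul hx hy
    rwa [← pow_two, hI] at this
  let e : O → B := fun a => ∑ j, g (δ j a) * ε j
  have he : ∀ a, e a ∈ I := fun a => I.sum_mem fun j _ => I.mul_mem_left _ (hε j)
  let g' : O →ₐ[R] B :=
    { toFun := fun a => g a + e a
      map_one' := by simp [e]
      map_mul' := fun a b => by
        have : e (a * b) = g a * e b + g b * e a := by
          simp only [e, Derivation.leibniz, smul_eq_mul, map_add, map_mul, Finset.mul_sum,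
            ← Finset.sum_add_distrib]
          exact Finset.sum_congr rfl fun j _ => by ring
        rw [this, map_mul]
        linear_combination (-1 : B) * sq _ (he a) _ (he b)
      map_zero' := by simp [e]
      map_add' := fun a b => by
        simp only [e, map_add, add_mul, Finset.sum_add_distrib]
        ring
      commutes' := fun r => by simp [e] }
  have k : g'.comp (IsScalarTower.toAlgHom R (MvPolynomial ι R) O) =
      IsScalarTower.toAlgHom R (MvPolynomial ι R) B := by
    refine MvPolynomial.algHom_ext fun j => ?_
    change g (algebraMap _ O (X j : MvPolynomial ι R)) +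
      e (algebraMap _ O (X j : MvPolynomial ι R)) = algebraMap _ B (X j : MvPolynomial ι R)
    have : e (algebraMap _ O (X j : MvPolynomial ι R)) = ε j := by
      simp only [e, h]
      rw [Finset.sum_eq_single j (fun i _ hi => by simp [hi]) (by simp)]
      simp
    rw [this]
    simp [ε]
  refine ⟨{ __ := g', commutes' := fun x => congr($k x) }, AlgHom.ext fun a => ?_⟩
  change Ideal.Quotient.mk I (g a + e a) = f a
  rw [map_add, hg', Ideal.Quotient.eq_zero_iff_mem.2 (he a), add_zero]

/-- a derivation extends along a formally smooth algebra -/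
theorem ext_der {R A k : Type} [CommRing R] [CommRing A] [CommRing k] [Algebra R A] [Algebra A k]
    [Algebra R k] [IsScalarTower R A k] [FormallySmooth A k] (d : Derivation R A k) :
    ∃ D : Derivation R k k, ∀ a, D (algebraMap A k a) = d a := by
  let ψ : A →+* TrivSqZeroExt k k :=
    { toFun := fun a => TrivSqZeroExt.inl (algebraMap A k a) + TrivSqZeroExt.inr (d a)
      map_one' := by ext <;> simp
      map_mul' := fun a b => by
        ext
        · simp
        · simp only [TrivSqZeroExt.snd_add, TrivSqZeroExt.snd_mul, TrivSqZeroExt.fst_add,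
            TrivSqZeroExt.snd_inl, TrivSqZeroExt.snd_inr, TrivSqZeroExt.fst_inl,
            TrivSqZeroExt.fst_inr, Derivation.leibniz, zero_add, add_zero, Algebra.smul_def a,
            Algebra.smul_def b, smul_eq_mul, op_smul_eq_mul]
          ring
      map_zero' := by ext <;> simp
      map_add' := fun a b => by
        ext
        · simp
        · simp }
  let _ : Algebra A (TrivSqZeroExt k k) := ψ.toAlgebra
  let π : TrivSqZeroExt k k →ₐ[A] k :=
    { (TrivSqZeroExt.fstHom k k k).toRingHom with
      commutes' := fun a => by
        change (TrivSqZeroExt.inl (algebraMap A k a) + TrivSqZeroExt.inr (d a)).fst = _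
        simp }
  have hs : Function.Surjective π := fun x => ⟨TrivSqZeroExt.inl x, rfl⟩
  have hn : IsNilpotent (RingHom.ker (π : TrivSqZeroExt k k →+* k)) := by
    refine ⟨1 + 1, ?_⟩
    rw [Submodule.pow_succ, Submodule.pow_one, Ideal.zero_eq_bot, eq_bot_iff, Ideal.mul_le]
    intro x hx y hy
    have hx' : x.fst = 0 := hx
    have hy' : y.fst = 0 := hy
    rw [Ideal.mem_bot]
    ext <;> simp [hx', hy']
  let l := FormallySmooth.liftOfSurjective (AlgHom.id A k) π hs hn
  have hl : ∀ x, (l x).fst = x := fun x =>
    FormallySmooth.liftOfSurjective_apply (AlgHom.id A k) π hs hn x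
  have hc : ∀ a, (l (algebraMap A k a)).snd = d a := fun a => by
    rw [l.commutes]
    change (TrivSqZeroExt.inl (algebraMap A k a) + TrivSqZeroExt.inr (d a)).snd = _
    simp
  have hm : ∀ x y, (l (x * y)).snd = x * (l y).snd + y * (l x).snd := fun x y => by
    rw [map_mul, TrivSqZeroExt.snd_mul, hl, hl]
    simp [mul_comm]
  have h0 : ∀ r, (l (algebraMap R k r)).snd = 0 := fun r => by
    rw [IsScalarTower.algebraMap_apply R A k, hc, d.map_algebraMap]
  refine ⟨Derivation.mk' ⟨⟨fun x => (l x).snd, fun x y => by simp⟩, fun r x => ?_⟩ fun x y => ?_,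
    hc⟩
  · change (l (r • x)).snd = r • (l x).snd
    rw [Algebra.smul_def, hm, h0, Algebra.smul_def]
    simp
  · exact hm x y

/-- derivations dual to algebraically independent elements of a field -/
theorem der_field {R k ι : Type} [Field R] [CharZero R] [Field k] [Algebra R k]
    [EssFiniteType R k] [DecidableEq ι] {t : ι → k} (ht : AlgebraicIndependent R t) (i : ι) :
    ∃ D : Derivation R k k, ∀ j, D (t j) = if i = j then 1 else 0 := by
  let _ : Algebra (MvPolynomial ι R) k := (aeval t : MvPolynomial ι R →ₐ[R] k).toAlgebra
  have : IsScalarTower R (MvPolynomial ι R) k :=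
    .of_algebraMap_eq fun r => ((aeval t : MvPolynomial ι R →ₐ[R] k).commutes r).symm
  have inj : Function.Injective (algebraMap (MvPolynomial ι R) k) := ht
  have : FaithfulSMul (MvPolynomial ι R) k := (faithfulSMul_iff_algebraMap_injective _ _).2 inj
  let _ : Algebra (FractionRing (MvPolynomial ι R)) k := FractionRing.liftAlgebra _ _
  have : IsScalarTower R (FractionRing (MvPolynomial ι R)) k := .to₁₃₄ _ (MvPolynomial ι R) _ _
  have : EssFiniteType (FractionRing (MvPolynomial ι R)) k := .of_comp R _ _
  have : FormallySmooth (MvPolynomial ι R) (FractionRing (MvPolynomial ι R)) :=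
    .of_isLocalization (nonZeroDivisors _)
  have : FormallySmooth (MvPolynomial ι R) k := .comp _ (FractionRing (MvPolynomial ι R)) _
  obtain ⟨D, hD⟩ := ext_der ((Algebra.linearMap (MvPolynomial ι R) k).compDer (pderiv i))
  refine ⟨D, fun j => ?_⟩
  have := hD (X j)
  rw [show algebraMap (MvPolynomial ι R) k (X j) = t j from aeval_X t j] at this
  rw [this]
  by_cases e : i = j
  · subst e
    simp
  · simp [pderiv_X_of_ne (Ne.symm e), e]

/-- derivations of a formally smooth local algebra dual to elements with independent residues -/
theorem der_loc {R O ι : Type} [Field R] [CharZero R] [CommRing O] [IsLocalRing O] [Algebra R O]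
    [FormallySmooth R O] [EssFiniteType R O] [Fintype ι] [DecidableEq ι] {t : ι → O}
    (ht : AlgebraicIndependent R fun j => residue O (t j)) :
    ∃ δ : ι → Derivation R O O, ∀ i j, δ i (t j) = if i = j then 1 else 0 := by
  have : EssFiniteType O (ResidueField O) := inferInstance
  have : EssFiniteType R (ResidueField O) := .comp R O _
  have k : ∀ i, ∃ d : Derivation R O O, ∀ j, residue O (d (t j)) = if i = j then 1 else 0 := by
    intro i
    obtain ⟨D, hD⟩ := der_field ht i
    obtain ⟨l, hl⟩ := Module.projective_lifting_property (Algebra.linearMap O (ResidueField O))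
      (D.compAlgebraMap O).liftKaehlerDifferential residue_surjective
    refine ⟨l.compDer (KaehlerDifferential.D R O), fun j => ?_⟩
    have := congr($hl (KaehlerDifferential.D R O (t j)))
    rw [Derivation.liftKaehlerDifferential_comp_D] at this
    exact this.trans (hD j)
  choose d hd using k
  let a : Matrix ι ι O := Matrix.of fun i j => d i (t j)
  have ha : IsUnit a.det := by
    have : (residue O).mapMatrix a = 1 := by
      ext i j
      simp [a, hd, Matrix.one_apply]
    rw [← notMem_maximalIdeal, ← residue_eq_zero_iff, RingHom.map_det, this]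
    simp
  refine ⟨fun i => ∑ l, a⁻¹ i l • d l, fun i j => ?_⟩
  have := congrFun (congrFun (Matrix.nonsing_inv_mul a ha) i) j
  rw [Matrix.mul_apply, Matrix.one_apply] at this
  rw [← this]
  have e : ∀ s : Finset ι, (∑ l ∈ s, a⁻¹ i l • d l) (t j) = ∑ l ∈ s, a⁻¹ i l * a l j := by
    intro s
    induction s using Finset.induction_on with
    | empty => simp
    | insert x s hx ih => rw [Finset.sum_insert hx, Finset.sum_insert hx, ← ih]; rfl
  exact e _

/-- **generic smoothness**: `O` is formally smooth over a subfield `L` which is algebraic over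
`R(t)`, the residues of the `t` being algebraically independent -/
theorem gsm {R O L ι : Type} [Field R] [CharZero R] [CommRing O] [IsLocalRing O] [Algebra R O]
    [FormallySmooth R O] [EssFiniteType R O] [Fintype ι] [Field L] [Algebra R L] [Algebra L O]
    [IsScalarTower R L O] {t : ι → L} (hb : IsTranscendenceBasis R t) : FormallySmooth L O := by
  classical
  have ht : AlgebraicIndependent R fun j => residue O (algebraMap L O (t j)) :=
    hb.1.map' (f := IsScalarTower.toAlgHom R L (ResidueField O)) (RingHom.injective _)
  obtain ⟨δ, hδ⟩ := der_loc ht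
  let _ : Algebra (MvPolynomial ι R) L := (aeval t : MvPolynomial ι R →ₐ[R] L).toAlgebra
  have : IsScalarTower R (MvPolynomial ι R) L :=
    .of_algebraMap_eq fun r => ((aeval t : MvPolynomial ι R →ₐ[R] L).commutes r).symm
  let _ : Algebra (MvPolynomial ι R) O :=
    ((algebraMap L O).comp (algebraMap (MvPolynomial ι R) L)).toAlgebra
  have : IsScalarTower (MvPolynomial ι R) L O := .of_algebraMap_eq' rfl
  have : IsScalarTower R (MvPolynomial ι R) O := .to₁₂₄ _ _ L _
  have : FormallySmooth (MvPolynomial ι R) O := fs_poly δ fun i j => by
    rw [← hδ, IsScalarTower.algebraMap_apply _ L O,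
      show algebraMap (MvPolynomial ι R) L (X j) = t j from aeval_X t j]
  have inj : Function.Injective (algebraMap (MvPolynomial ι R) L) := hb.1
  have : FaithfulSMul (MvPolynomial ι R) L := (faithfulSMul_iff_algebraMap_injective _ _).2 inj
  let _ : Algebra (FractionRing (MvPolynomial ι R)) L := FractionRing.liftAlgebra _ _
  have : Algebra.IsAlgebraic (MvPolynomial ι R) L := by
    exact (Algebra.isAlgebraic_ringHom_iff_of_comp_eq hb.1.aevalEquiv.toRingEquiv (RingEquiv.refl L)
      (RingHom.ext fun p => hb.1.algebraMap_aevalEquiv p)).1 hb.isAlgebraic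
  have : Algebra.IsAlgebraic (FractionRing (MvPolynomial ι R)) L :=
    .extendScalars (R := MvPolynomial ι R) (IsFractionRing.injective _ _)
  have : FormallyUnramified (FractionRing (MvPolynomial ι R)) L := .of_isSeparable _ _
  have : FormallyUnramified (MvPolynomial ι R) (FractionRing (MvPolynomial ι R)) :=
    .of_isLocalization (nonZeroDivisors _)
  have : FormallyUnramified (MvPolynomial ι R) L := .comp _ (FractionRing (MvPolynomial ι R)) _
  exact .of_restrictScalars (MvPolynomial ι R) L O

end Vale.Agent.P283R.Gf
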